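import Vale.Agent.P151.Bdl.B1
import Vale.Agent.P235.H154.Menger

/-!
# Menger's theorem for two edge-disjoint paths, in the container `Finset (Sym2 V)`, `Cn`

Item M of the project (log n) squared (captain helper343).
-/

set_option autoImplicit false
set_option linter.unusedSectionVars false

open Finset

namespace Vale.Agent.P151.R3.H120

open Vale.Agent.P151

variable {V : Type*} [DecidableEq V]

/-- `x` is connected to `W` in `S`. -/
def CnS (S : Finset (Sym2 V)) (W : Set V) (x : V) : Prop := ∃ w ∈ W, Cn S x w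

lemma CnS.mono {S T : Finset (Sym2 V)} (h : S ⊆ T) {W : Set V} {x : V} (hx : CnS S W x) :
    CnS T W x := by
  obtain ⟨w, hw, h1⟩ := hx
  exact ⟨w, hw, h1.mono h⟩

/-- the digraph of the edges of `S`, with two sources -/
def RR (S : Finset (Sym2 V)) (x y : V) : Bool ⊕ {e // e ∈ S} → Bool ⊕ {e // e ∈ S} → Prop
  | Sum.inl false, Sum.inr e => x ∈ e.1
  | Sum.inl true, Sum.inr e => y ∈ e.1
  | Sum.inr e, Sum.inr f => ∃ v, v ∈ e.1 ∧ v ∈ f.1
  | _, Sum.inl _ => False

lemma walk_exists {S T : Finset (Sym2 V)} (hT : T ⊆ S) {x y : V} {W : Set V} {u w : V}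
    (p : (gr T).Walk u w) (hw : w ∈ W) (hu : u ∉ W) (s : Bool ⊕ {e // e ∈ S})
    (hs : ∀ e : {e // e ∈ S}, u ∈ e.1 → RR S x y s (Sum.inr e)) :
    ∃ (ω : ℕ → Bool ⊕ {e // e ∈ S}) (n : ℕ), ω 0 = s ∧
      (∃ e : {e // e ∈ S}, ω n = Sum.inr e ∧ ∃ v ∈ W, v ∈ e.1) ∧
      (∀ j < n, RR S x y (ω j) (ω (j + 1))) ∧
      ∀ j < n, ∃ e : {e // e ∈ S}, ω (j + 1) = Sum.inr e ∧ e.1 ∈ T := by
  induction p generalizing s with
  | nil => exact absurd hw hu
  | cons h p ih =>
    rename_i a b c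
    have hab : s(a, b) ∈ T := by
      rw [gr, SimpleGraph.fromEdgeSet_adj] at h
      exact_mod_cast h.1
    have hsR := hs ⟨s(a, b), hT hab⟩ (by simp)
    by_cases hb : b ∈ W
    · refine ⟨fun j => if j = 0 then s else Sum.inr ⟨s(a, b), hT hab⟩, 1, by simp,
        ⟨⟨s(a, b), hT hab⟩, by simp, b, hb, by simp⟩, ?_, ?_⟩
      · intro j hj
        have : j = 0 := by omega
        subst this
        simpa using hsR
      · intro j hj
        exact ⟨⟨s(a, b), hT hab⟩, by simp, hab⟩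
    · obtain ⟨ω, n, h0, h1, h2, h3⟩ := ih hw hb (Sum.inr ⟨s(a, b), hT hab⟩)
        (fun e he => ⟨b, by simp, he⟩)
      refine ⟨fun j => if j = 0 then s else ω (j - 1), n + 1, by simp, ?_, ?_, ?_⟩
      · simpa using h1
      · intro j hj
        rcases j with _ | j
        · simpa [h0] using hsR
        · simpa using h2 j (by omega)
      · intro j hj
        rcases j with _ | j
        · exact ⟨⟨s(a, b), hT hab⟩, by simpa using h0, hab⟩
        · simpa using h3 j (by omega)

/-- a path of the digraph gives a connection -/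
lemma Cn_of_path {S : Finset (Sym2 V)} {x y z : V} {s : Bool ⊕ {e // e ∈ S}}
    (hs : ∀ e : {e // e ∈ S}, RR S x y s (Sum.inr e) → z ∈ e.1)
    (ω : ℕ → Bool ⊕ {e // e ∈ S}) (n : ℕ) (h0 : ω 0 = s)
    (h1 : ∀ j < n, RR S x y (ω j) (ω (j + 1))) (P : Finset (Sym2 V))
    (hP : ∀ j < n, ∀ e : {e // e ∈ S}, ω (j + 1) = Sum.inr e → e.1 ∈ P) :
    ∀ j < n, ∃ e : {e // e ∈ S}, ω (j + 1) = Sum.inr e ∧ ∀ v ∈ e.1, Cn P z v := by
  have hends : ∀ e ∈ P, ∀ u ∈ e, ∀ v ∈ e, Cn P u v := by
    intro e he u hu v hv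
    induction e using Sym2.ind with
    | _ a b =>
      have hab : Cn P a b := Cn_of_mem he
      rw [Sym2.mem_iff] at hu hv
      rcases hu with rfl | rfl <;> rcases hv with rfl | rfl
      · exact Cn.refl _ _
      · exact hab
      · exact hab.symm
      · exact Cn.refl _ _
  intro j
  induction j with
  | zero =>
    intro hj
    have h2 := h1 0 hj
    rw [h0] at h2
    rcases h3 : ω (0 + 1) with b | e
    · rw [h3] at h2
      rcases s with b' | e' <;> simp [RR] at h2
    · refine ⟨e, rfl, fun v hv => ?_⟩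
      rw [h3] at h2
      exact hends e.1 (hP 0 hj e h3) z (hs e h2) v hv
  | succ j ih =>
    intro hj
    obtain ⟨e, he, h2⟩ := ih (by omega)
    have h3 := h1 (j + 1) hj
    rw [he] at h3
    rcases h4 : ω (j + 1 + 1) with b | f
    · rw [h4] at h3
      simp [RR] at h3
    · rw [h4] at h3
      obtain ⟨v, hv1, hv2⟩ := h3
      exact ⟨f, rfl, fun v' hv' => (h2 v hv1).trans (hends f.1 (hP _ hj f h4) v hv2 v' hv')⟩

/-- **Menger, two edge-disjoint connections to `W`** -/
theorem menger2 (S : Finset (Sym2 V)) (W : Set V) (x y : V) (hx : CnS S W x) (hy : CnS S W y) :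
    (∃ S1 S2 : Finset (Sym2 V), S1 ⊆ S ∧ S2 ⊆ S ∧ Disjoint S1 S2 ∧ CnS S1 W x ∧ CnS S2 W y) ∨
      ∃ e ∈ S, ¬ CnS (S.erase e) W x ∧ ¬ CnS (S.erase e) W y := by
  classical
  by_cases hxW : x ∈ W
  · exact Or.inl ⟨∅, S, by simp, subset_rfl, by simp, ⟨x, hxW, Cn.refl _ _⟩, hy⟩
  by_cases hyW : y ∈ W
  · exact Or.inl ⟨S, ∅, subset_rfl, by simp, by simp, hx, ⟨y, hyW, Cn.refl _ _⟩⟩
  set A : Finset (Bool ⊕ {e // e ∈ S}) := {Sum.inl false, Sum.inl true} with hA
  set B : Finset (Bool ⊕ {e // e ∈ S}) := univ.filter fun z =>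
    ∃ e : {e // e ∈ S}, z = Sum.inr e ∧ ∃ v ∈ W, v ∈ e.1 with hB
  have hwalk : ∀ (T : Finset (Sym2 V)), T ⊆ S → ∀ b : Bool, CnS T W (if b then y else x) →
      ∃ (ω : ℕ → Bool ⊕ {e // e ∈ S}) (n : ℕ), ω 0 = Sum.inl b ∧ ω n ∈ B ∧
      (∀ j < n, RR S x y (ω j) (ω (j + 1))) ∧
      ∀ j < n, ∃ e : {e // e ∈ S}, ω (j + 1) = Sum.inr e ∧ e.1 ∈ T := by
    intro T hT b hb
    obtain ⟨w, hw, ⟨p⟩⟩ := hb
    obtain ⟨ω, n, h0, h1, h2, h3⟩ := walk_exists hT (x := x) (y := y) p hw
      (by cases b <;> simpa) (Sum.inl b) (by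
        intro e he
        cases b
        · simpa [RR] using he
        · simpa [RR] using he)
    exact ⟨ω, n, h0, by rw [hB, mem_filter]; exact ⟨mem_univ _, h1⟩, h2, h3⟩
  rcases Vale.Agent.P235.H154.menger (RR S x y) A B 2 with ⟨v, L, hL⟩ | ⟨X, hX, hsep⟩
  · left
    -- the path which starts at `b`
    have hpath : ∀ i : Fin 2, ∀ b : Bool, v i 0 = Sum.inl b →
        ∃ P : Finset (Sym2 V), P ⊆ S ∧ CnS P W (if b then y else x) ∧
          ∀ e ∈ P, ∃ j, j ≤ L i ∧ ∃ he : e ∈ S, v i j = Sum.inr ⟨e, he⟩ := by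
      intro i b hb
      set P : Finset (Sym2 V) := S.filter fun e => ∃ j, j ≤ L i ∧ ∃ he : e ∈ S,
        v i j = Sum.inr ⟨e, he⟩ with hP
      refine ⟨P, filter_subset _ _, ?_, fun e he => (mem_filter.1 he).2⟩
      have h1 := Cn_of_path (S := S) (x := x) (y := y) (z := if b then y else x) (s := Sum.inl b)
        (by
          intro e he
          cases b
          · simpa [RR] using he
          · simpa [RR] using he) (v i) (L i) hb (hL.adj i) P (by
          intro j hj e he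
          rw [hP, mem_filter]
          exact ⟨e.2, j + 1, hj, e.2, he⟩)
      have h2 := hL.stop i
      rw [hB, mem_filter] at h2
      obtain ⟨_, e, he, w, hw, hwe⟩ := h2
      rcases hLi : L i with _ | l
      · rw [hLi, hb] at he
        cases he
      · obtain ⟨f, hf, h3⟩ := h1 l (by omega)
        rw [hLi, hf] at he
        have hfe := Sum.inr.inj he
        subst hfe
        exact ⟨w, hw, h3 w hwe⟩
    have h01 : v 0 0 ≠ v 1 0 := by
      intro h
      have := (hL.inj 0 0 1 0 (Nat.zero_le _) (Nat.zero_le _) h).1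
      exact absurd this (by decide)
    have hdisj : ∀ P Q : Finset (Sym2 V), ∀ i i' : Fin 2, i ≠ i' →
        (∀ e ∈ P, ∃ j, j ≤ L i ∧ ∃ he : e ∈ S, v i j = Sum.inr ⟨e, he⟩) →
        (∀ e ∈ Q, ∃ j, j ≤ L i' ∧ ∃ he : e ∈ S, v i' j = Sum.inr ⟨e, he⟩) → Disjoint P Q := by
      intro P Q i i' hii hP hQ
      rw [Finset.disjoint_left]
      intro e heP heQ
      obtain ⟨j, hj, he, h1⟩ := hP e heP
      obtain ⟨j', hj', he', h2⟩ := hQ e heQ
      exact hii (hL.inj i j i' j' hj hj' (by rw [h1, h2])).1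
    have hstart : ∀ i : Fin 2, v i 0 = Sum.inl false ∨ v i 0 = Sum.inl true := by
      intro i
      have := hL.start i
      rw [hA, mem_insert, mem_singleton] at this
      exact this
    rcases hstart 0 with h0 | h0 <;> rcases hstart 1 with h1 | h1
    · exact absurd (h0.trans h1.symm) h01
    · obtain ⟨P, hP1, hP2, hP3⟩ := hpath 0 false h0
      obtain ⟨Q, hQ1, hQ2, hQ3⟩ := hpath 1 true h1
      exact ⟨P, Q, hP1, hQ1, hdisj P Q 0 1 (by decide) hP3 hQ3, by simpa using hP2,
        by simpa using hQ2⟩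
    · obtain ⟨P, hP1, hP2, hP3⟩ := hpath 1 false h1
      obtain ⟨Q, hQ1, hQ2, hQ3⟩ := hpath 0 true h0
      exact ⟨P, Q, hP1, hQ1, hdisj P Q 1 0 (by decide) hP3 hQ3, by simpa using hP2,
        by simpa using hQ2⟩
    · exact absurd (h0.trans h1.symm) h01
  · right
    have hmeet : ∀ (T : Finset (Sym2 V)), T ⊆ S → ∀ b : Bool, CnS T W (if b then y else x) →
        Sum.inl b ∈ X ∨ ∃ e : {e // e ∈ S}, Sum.inr e ∈ X ∧ e.1 ∈ T := by
      intro T hT b hb
      obtain ⟨ω, n, h0, h1, h2, h3⟩ := hwalk T hT b hb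
      obtain ⟨j, hj, hjX⟩ := hsep ω n (by rw [h0, hA]; cases b <;> simp) h1 h2
      rcases j with _ | j
      · rw [h0] at hjX
        exact Or.inl hjX
      · obtain ⟨e, he, heT⟩ := h3 j (by omega)
        rw [he] at hjX
        exact Or.inr ⟨e, hjX, heT⟩
    have hone : ∀ a ∈ X, ∀ b ∈ X, a = b := by
      intro a ha b hb
      exact Finset.card_le_one.1 (by omega) a ha b hb
    have hxS := hmeet S subset_rfl false (by simpa using hx)
    have hyS := hmeet S subset_rfl true (by simpa using hy)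
    -- the separator is an edge
    have hedge : ∃ e : {e // e ∈ S}, Sum.inr e ∈ X := by
      rcases hxS with h | ⟨e, he, _⟩
      · rcases hyS with h' | ⟨e, he, _⟩
        · have := hone _ h _ h'
          cases this
        · exact ⟨e, he⟩
      · exact ⟨e, he⟩
    obtain ⟨e, he⟩ := hedge
    refine ⟨e.1, e.2, fun h => ?_, fun h => ?_⟩
    · rcases hmeet (S.erase e.1) (erase_subset _ _) false (by simpa using h) with h1 | ⟨f, hf, hfT⟩
      · have := hone _ h1 _ he
        cases this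
      · have := Sum.inr.inj (hone _ hf _ he)
        subst this
        exact notMem_erase _ _ hfT
    · rcases hmeet (S.erase e.1) (erase_subset _ _) true (by simpa using h) with h1 | ⟨f, hf, hfT⟩
      · have := hone _ h1 _ he
        cases this
      · have := Sum.inr.inj (hone _ hf _ he)
        subst this
        exact notMem_erase _ _ hfT

end Vale.Agent.P151.R3.H120
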